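import Vale.Agent.P281.H156.KD.Core
import Vale.Agent.P281.H227.GMC
import Vale.Agent.P281.H413.KD.FC

/-! P281, theorem NU, row N4: an inequality of Khovanskii-Teissier type, by Yau's theorem. -/

open scoped Manifold ContDiff ComplexOrder Topology
open Complex Set Filter MeasureTheory

set_option linter.all false

noncomputable section

namespace Vale.Agent.P281.H716.NU

open Vale.Agent.P272.K Vale.Agent.P272.K.AMP Vale.Agent.P299.D Vale.Agent.P299 Vale.Agent.P299.H882
open Vale.Agent.P281.H167.GM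
open INT (IsDensity intX IsClosedForm)

/-- weighted AM-GM: `(a ^ d * ∏ t_j * b ^ e) ^ (1/n) ≤ (1/n) (weighted sum)` -/
theorem amgm {n d k e : ℕ} (hn : n = d + k + e) (hn0 : 0 < n) {a b : ℝ} {t : Fin k → ℝ}
    (ha : 0 ≤ a) (hb : 0 ≤ b) (ht : ∀ j, 0 ≤ t j) {I₀ D I₁ : ℝ} (hI₀ : 0 < I₀) (hD : 0 < D)
    (hI₁ : 0 < I₁) :
    (a ^ d * (∏ j, t j) * b ^ e) ^ ((n : ℝ)⁻¹) ≤
      (I₀ ^ d * D ^ k * I₁ ^ e) ^ ((n : ℝ)⁻¹) * ((n : ℝ)⁻¹ *
        (d * (a / I₀) + (∑ j, t j / D) + e * (b / I₁))) := by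
  -- the factors, indexed by `Fin d ⊕ Fin k ⊕ Fin e`
  set z : Fin d ⊕ (Fin k ⊕ Fin e) → ℝ :=
    Sum.elim (fun _ => a / I₀) (Sum.elim (fun j => t j / D) (fun _ => b / I₁)) with hz
  have hz0 : ∀ i, 0 ≤ z i := by
    rintro (i | i | i)
    · exact div_nonneg ha hI₀.le
    · exact div_nonneg (ht i) hD.le
    · exact div_nonneg hb hI₁.le
  have hnR : (0 : ℝ) < n := by exact_mod_cast hn0
  have hcard : ∑ _i : Fin d ⊕ (Fin k ⊕ Fin e), (n : ℝ)⁻¹ = 1 := by
    rw [Finset.sum_const, Finset.card_univ, nsmul_eq_mul]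
    simp only [Fintype.card_sum, Fintype.card_fin]
    rw [mul_inv_eq_one₀ hnR.ne', hn]
    push_cast
    ring
  have h1 := Real.geom_mean_le_arith_mean_weighted Finset.univ
    (fun _ : Fin d ⊕ (Fin k ⊕ Fin e) => (n : ℝ)⁻¹) z (fun _ _ => by positivity) hcard
    (fun i _ => hz0 i)
  rw [← Finset.mul_sum, Real.finset_prod_rpow _ _ (fun i _ => hz0 i)] at h1
  have h2 : ∏ i, z i = (a ^ d * (∏ j, t j) * b ^ e) / (I₀ ^ d * D ^ k * I₁ ^ e) := by
    rw [Fintype.prod_sum_type, Fintype.prod_sum_type]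
    simp only [hz, Sum.elim_inl, Sum.elim_inr, Finset.prod_const, Finset.card_univ,
      Fintype.card_fin, Finset.prod_div_distrib, div_pow]
    field_simp
  have h3 : ∑ i, z i = d * (a / I₀) + (∑ j, t j / D) + e * (b / I₁) := by
    rw [Fintype.sum_sum_type, Fintype.sum_sum_type]
    simp only [hz, Sum.elim_inl, Sum.elim_inr, Finset.sum_const, Finset.card_univ,
      Fintype.card_fin, nsmul_eq_mul]
    ring
  rw [h2, h3] at h1
  have hP : 0 ≤ a ^ d * (∏ j, t j) * b ^ e :=
    mul_nonneg (mul_nonneg (pow_nonneg ha _) (Finset.prod_nonneg fun j _ => ht j))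
      (pow_nonneg hb _)
  have hE : 0 < I₀ ^ d * D ^ k * I₁ ^ e := by positivity
  rw [Real.div_rpow hP hE.le, div_le_iff₀ (Real.rpow_pos_of_pos hE _)] at h1
  linarith

section

variable {n : ℕ} {X : Type} [TopologicalSpace X] [T2Space X] [CompactSpace X] [ConnectedSpace X]
  [ChartedSpace (Cm n) X] [IsManifold 𝓘(ℂ, Cm n) ω X]

/-- one step, with `B + δ` -/
theorem kt_step {d k e : ℕ} (hn : n = d + k + e) (hn0 : 0 < n) {G χ : FormM n X}
    (hG : IsKahler G) (hχ : IsKahler χ) {B : X → ℝ} (hB : SmoothFn (n := n) B) (hB0 : ∀ x, 0 ≤ B x)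
    (T : Fin k → FormM n X → X → ℝ) {K D : ℝ} (hK : 0 < K)
    (hT : ∀ U, SmoothFn (n := n) U → IsKahler (addH G U) → ∀ j, Continuous (T j (addH G U)) ∧
      (∀ x, 0 ≤ T j (addH G U) x) ∧ J (addH G U) (T j (addH G U)) ≤ D)
    (hpt : ∀ U, SmoothFn (n := n) U → IsKahler (addH G U) → ∀ c x, At c x →
      B x * (χ c (c x)).det.re ≤ K * (trX (addH G U) G x ^ d * (∏ j, T j (addH G U) x) *
        trX (addH G U) χ x ^ e) * (addH G U c (c x)).det.re)
    {I₀ D' I₁ : ℝ} (hI₀ : 0 < I₀) (hI₀' : mixX G G ≤ I₀) (hD' : 0 < D') (hDD : D ≤ D')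
    (hI₁ : 0 < I₁) (hI₁' : mixX G χ ≤ I₁) {δ : ℝ} (hδ : 0 < δ) :
    J G (fun _ => 1) ^ (n - 1) * J χ B ^ n ≤
      K * (I₀ ^ d * D' ^ k * I₁ ^ e) * (J χ B + δ * J χ (fun _ => 1)) ^ (n - 1) := by
  obtain ⟨x₀⟩ : Nonempty X := inferInstance
  have hχH := hχ.toIsHermitian
  have hGH := hG.toIsHermitian
  have hφ := AMP.Main.isCanonical_logdet hχH
  have hcan := isCanonical_phiD (m := 1) hφ hB hB0 hδ
  obtain ⟨U, c, hU, hg, hlg⟩ := exists_yauC H882.yau hG hcan
  set g : FormM n X := addH G U with hgdef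
  have hgH := hg.toIsHermitian
  have cB := sm_continuous hB
  have hrel : ∀ f : X → ℝ, J g f = Real.exp c * J χ (fun x => f x * (B x + δ)) := by
    intro f
    have h1 := J_rel (c0 := 0) (m := 1) (ρ := B) hgH hχH
      (fun e x hx => by rw [add_zero]) hlg f
    rw [h1, sub_zero]
    congr 1
    refine J_congr fun x => ?_
    have h2 : 0 < B x + δ := by have := hB0 x; linarith
    rw [Nat.cast_one, inv_one, one_mul, Real.exp_log h2]
  -- volumes
  have hcoh : ∀ A : FormM n X, IsClosedForm A → mixX g A = mixX G A := by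
    intro A hA
    have h := Vale.Agent.P281.H227.GMC.cohPart n X G A (INT.IsKahler.isClosedForm hG) hA U
      (fun _ => 0) hU (smoothFn_const 0)
    have h0 : addH A (fun _ => 0) = A := by
      funext e z
      have h := hess_const' (n := n) (X := X) 0 e z
      have h' : cHess (fun y : Cm n => (fun _ : X => (0 : ℝ)) (e.symm y)) z = 0 := h
      simp only [addH]
      rw [h', add_zero]
    rw [h0] at h
    exact h
  have hvol0 : ∀ A : FormM n X, IsHermitian A → mixX A A = n * J A (fun _ => 1) := by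
    intro A hA
    rw [← J_trX hA hA.isForm, ← J_const_mul]
    refine J_congr fun x => ?_
    have hx := at_chartAt (n := n) x
    rw [trX_eq hA hA.isForm hx, mul_one]
    unfold trE
    have h1 : ((A (chartAt (Cm n) x) (chartAt (Cm n) x x))⁻¹ *
        A (chartAt (Cm n) x) (chartAt (Cm n) x x)) = 1 :=
      Matrix.nonsing_inv_mul _ ((hA.posDef _ x hx).det_pos.ne'.isUnit)
    rw [h1, Matrix.trace_one]
    simp
  have hnR : (0 : ℝ) < n := by exact_mod_cast hn0
  have hvol : J g (fun _ => 1) = J G (fun _ => 1) := by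
    have h1 := hvol0 g hgH
    have h2 := hvol0 G hGH
    have h3 : mixX g g = mixX G G := Vale.Agent.P281.H227.GMC.cohPart n X G G
      (INT.IsKahler.isClosedForm hG) (INT.IsKahler.isClosedForm hG) U U hU hU
    rw [h1, h2] at h3
    exact mul_left_cancel₀ hnR.ne' h3
  set M := J χ B with hM
  set v := J χ (fun _ => 1) with hv
  have hM0 : 0 ≤ M := J_nonneg hχH hB0
  have hv0 : 0 < v := J_pos hχH
  have hJG : 0 < J G (fun _ => 1) := J_pos hGH
  have hvol2 : J G (fun _ => 1) = Real.exp c * (M + δ * v) := by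
    have c1 : Continuous fun _ : X => δ * 1 := continuous_const
    have h1 : J χ (fun x => 1 * (B x + δ)) = M + δ * v := by
      have h2 : J χ (fun x => 1 * (B x + δ)) = J χ (fun x => B x + δ * 1) :=
        J_congr fun x => by ring
      rw [h2, J_add hχH cB c1, J_const_mul]
    rw [← hvol, hrel, h1]
  -- the trace functions
  have cG : Continuous (trX g G) := sm_continuous (smoothFn_trX hgH hGH.isForm hGH.smooth)
  have cχ : Continuous (trX g χ) := sm_continuous (smoothFn_trX hgH hχH.isForm hχH.smooth)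
  have pos_tr : ∀ {A : FormM n X}, IsKahler A → ∀ x, 0 ≤ trX g A x := by
    intro A hA x
    have hx := at_chartAt (n := n) x
    rw [trX_eq hgH hA.toIsHermitian.isForm hx]
    exact (Complex.le_def.1 (C2.trace_mul_nonneg (hg.posDef _ x hx).inv.posSemidef
      (hA.posDef _ x hx).posSemidef)).1
  obtain hTU := hT U hU hg
  -- the function `r`
  set r : X → ℝ := fun x => B x / (B x + δ) with hr
  have hBδ : ∀ x, 0 < B x + δ := fun x => by have := hB0 x; linarith
  have hr0 : ∀ x, 0 ≤ r x := fun x => div_nonneg (hB0 x) (hBδ x).le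
  have hr1 : ∀ x, r x ≤ 1 := fun x => (div_le_one (hBδ x)).2 (by linarith)
  have cr : Continuous r := cB.div (cB.add continuous_const) fun x => (hBδ x).ne'
  have hJr : J g r = Real.exp c * M := by
    rw [hrel]
    congr 1
    refine J_congr fun x => ?_
    simp only [hr]
    rw [div_mul_cancel₀ _ (hBδ x).ne']
  set E : ℝ := (I₀ ^ d * D' ^ k * I₁ ^ e) with hE
  have hE0 : 0 < E := by positivity
  set q : ℝ := Real.exp (-c) / K with hq
  have hq0 : 0 < q := div_pos (Real.exp_pos _) hK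
  -- the pointwise inequality
  have hpw : ∀ x, q ^ ((n : ℝ)⁻¹) * r x ≤ E ^ ((n : ℝ)⁻¹) * ((n : ℝ)⁻¹ *
      (d * (trX g G x / I₀) + (∑ j, T j g x / D') + e * (trX g χ x / I₁))) := by
    intro x
    have hx := at_chartAt (n := n) x
    have h1 := hpt U hU hg _ x hx
    have h2 : (g (chartAt (Cm n) x) (chartAt (Cm n) x x)).det.re =
        Real.exp c * ((B x + δ) * (χ (chartAt (Cm n) x) (chartAt (Cm n) x x)).det.re) := by
      have h3 := congrArg Real.exp (hlg _ x hx)
      rw [Real.exp_log (hgH.det_re_pos hx)] at h3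
      rw [h3]
      simp only [phiD]
      rw [hx.left_inv, Nat.cast_one, inv_one, one_mul, Real.exp_add, Real.exp_add,
        Real.exp_log (hBδ x), Real.exp_log (hχH.det_re_pos hx)]
      ring
    have hdχ : 0 < (χ (chartAt (Cm n) x) (chartAt (Cm n) x x)).det.re := hχH.det_re_pos hx
    rw [← hgdef, h2] at h1
    set P : ℝ := trX g G x ^ d * (∏ j, T j g x) * trX g χ x ^ e with hP
    have h4 : q * r x ≤ P := by
      have h5 : B x ≤ K * P * Real.exp c * (B x + δ) := by
        have h6 : B x * (χ (chartAt (Cm n) x) (chartAt (Cm n) x x)).det.re ≤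
            (K * P * Real.exp c * (B x + δ)) *
              (χ (chartAt (Cm n) x) (chartAt (Cm n) x x)).det.re := by
          refine h1.trans (le_of_eq ?_)
          ring
        exact le_of_mul_le_mul_right h6 hdχ
      have h7 : r x ≤ K * P * Real.exp c := (div_le_iff₀ (hBδ x)).2 h5
      have h8 : q * r x ≤ q * (K * P * Real.exp c) := mul_le_mul_of_nonneg_left h7 hq0.le
      refine h8.trans (le_of_eq ?_)
      rw [hq, Real.exp_neg]
      field_simp
    have h5 : q ^ ((n : ℝ)⁻¹) * r x ≤ (q * r x) ^ ((n : ℝ)⁻¹) := by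
      rw [Real.mul_rpow hq0.le (hr0 x)]
      refine mul_le_mul_of_nonneg_left ?_ (Real.rpow_nonneg hq0.le _)
      rcases (hr0 x).eq_or_lt with h | h
      · rw [← h]
        exact Real.rpow_nonneg le_rfl _
      · have hn1 : (n : ℝ)⁻¹ ≤ 1 := inv_le_one_of_one_le₀ (by exact_mod_cast hn0)
        have h6 := Real.rpow_le_rpow_of_exponent_ge h (hr1 x) hn1
        rwa [Real.rpow_one] at h6
    refine h5.trans ((Real.rpow_le_rpow (mul_nonneg hq0.le (hr0 x)) h4 (by positivity)).trans ?_)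
    exact amgm hn hn0 (pos_tr hG x) (pos_tr hχ x) (fun j => (hTU j).2.1 x) hI₀ hD' hI₁
  -- integrate
  have cT : Continuous fun x => ∑ j, T j g x / D' :=
    continuous_finset_sum _ fun j _ => (hTU j).1.div_const _
  have cL : Continuous fun x => d * (trX g G x / I₀) + (∑ j, T j g x / D') +
      e * (trX g χ x / I₁) :=
    ((continuous_const.mul (cG.div_const _)).add cT).add (continuous_const.mul (cχ.div_const _))
  have c1 : Continuous fun x => q ^ ((n : ℝ)⁻¹) * r x := continuous_const.mul cr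
  have c2 : Continuous fun x => E ^ ((n : ℝ)⁻¹) * ((n : ℝ)⁻¹ *
      (d * (trX g G x / I₀) + (∑ j, T j g x / D') + e * (trX g χ x / I₁))) :=
    continuous_const.mul (continuous_const.mul cL)
  have hint := J_mono hgH c1 c2 hpw
  rw [J_const_mul, J_const_mul, J_const_mul, hJr] at hint
  have hL : J g (fun x => d * (trX g G x / I₀) + (∑ j, T j g x / D') +
      e * (trX g χ x / I₁)) ≤ n := by
    have a1 : Continuous fun x => (d : ℝ) * (trX g G x / I₀) :=
      continuous_const.mul (cG.div_const _)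
    have a2 : Continuous fun x => (e : ℝ) * (trX g χ x / I₁) :=
      continuous_const.mul (cχ.div_const _)
    have a3 : Continuous fun x => (d : ℝ) * (trX g G x / I₀) + (∑ j, T j g x / D') := a1.add cT
    rw [J_add hgH a3 a2, J_add hgH a1 cT]
    have e1 : J g (fun x => d * (trX g G x / I₀)) ≤ d := by
      have h1 : J g (fun x => d * (trX g G x / I₀)) = d * (J g (trX g G) / I₀) := by
        rw [J_const_mul]
        congr 1
        rw [div_eq_inv_mul, ← J_const_mul]
        refine J_congr fun x => ?_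
        rw [div_eq_inv_mul]
      rw [h1, J_trX hgH hGH.isForm, hcoh G (INT.IsKahler.isClosedForm hG)]
      have h2 : mixX G G / I₀ ≤ 1 := (div_le_one hI₀).2 hI₀'
      have h3 := mul_le_mul_of_nonneg_left h2 (Nat.cast_nonneg d : (0 : ℝ) ≤ d)
      rwa [mul_one] at h3
    have e2 : J g (fun x => e * (trX g χ x / I₁)) ≤ e := by
      have h1 : J g (fun x => e * (trX g χ x / I₁)) = e * (J g (trX g χ) / I₁) := by
        rw [J_const_mul]
        congr 1
        rw [div_eq_inv_mul, ← J_const_mul]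
        refine J_congr fun x => ?_
        rw [div_eq_inv_mul]
      rw [h1, J_trX hgH hχH.isForm, hcoh χ (INT.IsKahler.isClosedForm hχ)]
      have h2 : mixX G χ / I₁ ≤ 1 := (div_le_one hI₁).2 hI₁'
      have h3 := mul_le_mul_of_nonneg_left h2 (Nat.cast_nonneg e : (0 : ℝ) ≤ e)
      rwa [mul_one] at h3
    have e3 : J g (fun x => ∑ j, T j g x / D') ≤ k := by
      have h1 : J g (fun x => ∑ j, T j g x / D') = ∑ j, J g (fun x => T j g x / D') :=
        H156.KD.J_sum hgH Finset.univ _ fun j => (hTU j).1.div_const _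
      rw [h1]
      have h2 : ∀ j, J g (fun x => T j g x / D') ≤ 1 := by
        intro j
        have h3 : J g (fun x => T j g x / D') = J g (T j g) / D' := by
          rw [div_eq_inv_mul, ← J_const_mul]
          refine J_congr fun x => ?_
          rw [div_eq_inv_mul]
        rw [h3]
        exact (div_le_one hD').2 ((hTU j).2.2.trans hDD)
      refine (Finset.sum_le_sum fun j _ => h2 j).trans (le_of_eq ?_)
      simp
    have e4 : (n : ℝ) = d + k + e := by rw [hn]; push_cast; ring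
    rw [e4]
    linarith
  have h1 : q ^ ((n : ℝ)⁻¹) * (Real.exp c * M) ≤ E ^ ((n : ℝ)⁻¹) := by
    refine hint.trans ?_
    have h2 : (n : ℝ)⁻¹ * J g (fun x => d * (trX g G x / I₀) + (∑ j, T j g x / D') +
        e * (trX g χ x / I₁)) ≤ 1 := by
      have h3 := mul_le_mul_of_nonneg_left hL (inv_nonneg.2 hnR.le)
      rwa [inv_mul_cancel₀ hnR.ne'] at h3
    have h4 := mul_le_mul_of_nonneg_left h2 (Real.rpow_nonneg hE0.le ((n : ℝ)⁻¹))
    rwa [mul_one] at h4
  -- the `n`-th power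
  have h2 : q * (Real.exp c * M) ^ n ≤ E := by
    have h3 := pow_le_pow_left₀ (mul_nonneg (Real.rpow_nonneg hq0.le _)
      (mul_nonneg (Real.exp_pos c).le hM0)) h1 n
    rw [mul_pow, ← Real.rpow_natCast, ← Real.rpow_mul hq0.le, inv_mul_cancel₀ hnR.ne',
      Real.rpow_one, ← Real.rpow_natCast (E ^ ((n : ℝ)⁻¹)), ← Real.rpow_mul hE0.le,
      inv_mul_cancel₀ hnR.ne', Real.rpow_one] at h3
    exact h3
  have h3 : Real.exp c ^ (n - 1) * M ^ n ≤ K * E := by
    have h4 : q * (Real.exp c * M) ^ n = (Real.exp c ^ (n - 1) * M ^ n) / K := by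
      obtain ⟨n', rfl⟩ : ∃ n', n = n' + 1 := ⟨n - 1, by omega⟩
      rw [hq, Real.exp_neg, mul_pow, Nat.add_sub_cancel, pow_succ]
      field_simp
    rw [h4, div_le_iff₀ hK] at h2
    linarith
  have h4 : 0 ≤ (M + δ * v) ^ (n - 1) := by positivity
  have h5 := mul_le_mul_of_nonneg_right h3 h4
  rw [hvol2]
  calc (Real.exp c * (M + δ * v)) ^ (n - 1) * M ^ n
      = Real.exp c ^ (n - 1) * M ^ n * (M + δ * v) ^ (n - 1) := by rw [mul_pow]; ring
    _ ≤ K * E * (M + δ * v) ^ (n - 1) := h5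

/-- **Row N4**: an inequality of Khovanskii-Teissier type. -/
theorem kt {d k e : ℕ} (hn : n = d + k + e) (hn0 : 0 < n) {G χ : FormM n X}
    (hG : IsKahler G) (hχ : IsKahler χ) {B : X → ℝ} (hB : SmoothFn (n := n) B) (hB0 : ∀ x, 0 ≤ B x)
    (T : Fin k → FormM n X → X → ℝ) {K D : ℝ} (hK : 0 < K) (hD0 : 0 ≤ D)
    (hT : ∀ U, SmoothFn (n := n) U → IsKahler (addH G U) → ∀ j, Continuous (T j (addH G U)) ∧
      (∀ x, 0 ≤ T j (addH G U) x) ∧ J (addH G U) (T j (addH G U)) ≤ D)
    (hpt : ∀ U, SmoothFn (n := n) U → IsKahler (addH G U) → ∀ c x, At c x →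
      B x * (χ c (c x)).det.re ≤ K * (trX (addH G U) G x ^ d * (∏ j, T j (addH G U) x) *
        trX (addH G U) χ x ^ e) * (addH G U c (c x)).det.re) :
    J χ B * J G (fun _ => 1) ^ (n - 1) ≤ K * (mixX G G ^ d * D ^ k * mixX G χ ^ e) := by
  obtain ⟨x₀⟩ : Nonempty X := inferInstance
  have hχH := hχ.toIsHermitian
  have hGH := hG.toIsHermitian
  have hmix : ∀ {A : FormM n X}, IsKahler A → 0 ≤ mixX G A := by
    intro A hA
    rw [← J_trX hGH hA.toIsHermitian.isForm]
    refine J_nonneg hGH fun x => ?_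
    have hx := at_chartAt (n := n) x
    rw [trX_eq hGH hA.toIsHermitian.isForm hx]
    exact (Complex.le_def.1 (C2.trace_mul_nonneg (hG.posDef _ x hx).inv.posSemidef
      (hA.posDef _ x hx).posSemidef)).1
  have hV := hmix hG
  have hW := hmix hχ
  have hM0 : 0 ≤ J χ B := J_nonneg hχH hB0
  rcases hM0.eq_or_lt with h0 | hM
  · rw [← h0, zero_mul]
    positivity
  -- `δ → 0`
  have key : ∀ ε : ℝ, 0 < ε → J χ B * J G (fun _ => 1) ^ (n - 1) ≤
      K * ((mixX G G + ε) ^ d * (D + ε) ^ k * (mixX G χ + ε) ^ e) := by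
    intro ε hε
    have h1 : ∀ δ : ℝ, 0 < δ → J G (fun _ => 1) ^ (n - 1) * J χ B ^ n ≤
        K * ((mixX G G + ε) ^ d * (D + ε) ^ k * (mixX G χ + ε) ^ e) *
          (J χ B + δ * J χ (fun _ => 1)) ^ (n - 1) := fun δ hδ =>
      kt_step hn hn0 hG hχ hB hB0 T hK hT hpt (by linarith) (by linarith) (by linarith)
        (by linarith) (by linarith) (by linarith) hδ
    have h2 : Tendsto (fun δ : ℝ => K * ((mixX G G + ε) ^ d * (D + ε) ^ k *
        (mixX G χ + ε) ^ e) * (J χ B + δ * J χ (fun _ => 1)) ^ (n - 1)) (𝓝[>] 0)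
        (𝓝 (K * ((mixX G G + ε) ^ d * (D + ε) ^ k * (mixX G χ + ε) ^ e) *
          (J χ B + 0 * J χ (fun _ => 1)) ^ (n - 1))) := by
      refine Tendsto.mono_left (Continuous.tendsto ?_ 0) nhdsWithin_le_nhds
      fun_prop
    have h3 := ge_of_tendsto h2 (by
      filter_upwards [self_mem_nhdsWithin] with δ hδ using h1 δ hδ)
    rw [zero_mul, add_zero] at h3
    obtain ⟨n', rfl⟩ : ∃ n', n = n' + 1 := ⟨n - 1, by omega⟩
    rw [Nat.add_sub_cancel] at h3 ⊢
    rw [pow_succ (J χ B)] at h3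
    have h4 : 0 < J χ B ^ n' := pow_pos hM _
    refine le_of_mul_le_mul_right ?_ h4
    calc J χ B * J G (fun _ => 1) ^ n' * J χ B ^ n'
        = J G (fun _ => 1) ^ n' * (J χ B ^ n' * J χ B) := by ring
      _ ≤ _ := h3
  have h2 : Tendsto (fun ε : ℝ => K * ((mixX G G + ε) ^ d * (D + ε) ^ k *
      (mixX G χ + ε) ^ e)) (𝓝[>] 0)
      (𝓝 (K * ((mixX G G + 0) ^ d * (D + 0) ^ k * (mixX G χ + 0) ^ e))) := by
    refine Tendsto.mono_left (Continuous.tendsto ?_ 0) nhdsWithin_le_nhds
    fun_prop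
  have h3 := ge_of_tendsto h2 (by
    filter_upwards [self_mem_nhdsWithin] with ε hε using key ε hε)
  rwa [add_zero, add_zero, add_zero] at h3

end

end Vale.Agent.P281.H716.NU
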