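import Vale.Agent.P281.H716.LC.Br
import Vale.Agent.P281.H167.LC.Lap
import Vale.Agent.P281.H227.SB.Deg
import Vale.Agent.P281.H575.KD.Log
import Vale.Agent.P281.H413.LC.Cons
import Vale.Agent.P281.H564.GMc
import Vale.Agent.P281.H342.NU.Iface2

/-! P281, theorem NU, row N8 (d): the mass on the tube. -/

open scoped Manifold ContDiff Topology ComplexOrder
open Set Filter MeasureTheory Metric Vale.Agent.P281.J Vale.Agent.P272.K Vale.Agent.P272.K.AMP
open Vale.Agent.P299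
open Vale.Agent.P299.H882 (J xi qf)
open Vale.Agent.P272.K.INT (IsClosedForm)

set_option linter.all false

noncomputable section

namespace Vale.Agent.P281.H716.NU

open Vale.Agent.P281 Vale.Agent.P281.MF Vale.Agent.P281.ISO Vale.Agent.P281.H713.SA
open Vale.Agent.P281.H716 Vale.Agent.P299.D Vale.Agent.P281.H787 Vale.Agent.P281.H713.KD
open Vale.Agent.P281.H713.TL Vale.Agent.P281.H498 Vale.Agent.P281.H167.LC
open Vale.Agent.P281.H342.NU Vale.Agent.P281.H575.KD
open Vale.Agent.P281.H167.GM (mixX)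

section null

variable {n : ℕ} {X : Type} [TopologicalSpace X] [ChartedSpace (Cm n) X]

/-- the zero set of the norm of a holomorphic section is null -/
theorem null_hol [PreconnectedSpace X] {h : X → ℝ} (hh : IsHolNorm (n := n) h)
    (hne : ∃ x, 0 < h x) {e : Chart n X} (he : e ∈ atlas (Cm n) X) :
    volume {z | z ∈ e.target ∧ h (e.symm z) = 0} = 0 := by
  refine measure_null_of_locally_null _ fun z hz => ?_
  have hat : At e (e.symm z) := At.of_target he hz.1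
  obtain ⟨N, a, ha, c, hc, hc1, hlow⟩ := hol_lower hh hat
  rw [e.right_inv hz.1] at hlow
  have ha' : ∀ b, AnalyticAt ℂ (a b) z := fun b => by
    have := ha b
    rwa [e.right_inv hz.1] at this
  have h1 : ∀ᶠ w in 𝓝 z, w ∈ e.target ∧ (∀ b, AnalyticAt ℂ (a b) w) ∧
      ((∀ b, c * ‖a b w‖ ^ 2 ≤ h (e.symm w)) ∧ ((∀ b, a b w = 0) → h (e.symm w) = 0)) := by
    filter_upwards [e.open_target.mem_nhds hz.1,
      eventually_all.2 fun b => (ha' b).eventually_analyticAt, hlow] with w h1 h2 h3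
      using ⟨h1, h2, h3⟩
  obtain ⟨t, ht, hball⟩ := Metric.eventually_nhds_iff_ball.1 h1
  have hb : ∃ b, ∃ w ∈ ball z t, a b w ≠ 0 := by
    by_contra hcon
    push Not at hcon
    refine hol_freq hh hne (e.symm z) ?_
    have h2 : e.source ∩ e ⁻¹' ball z t ∈ 𝓝 (e.symm z) :=
      (e.isOpen_inter_preimage isOpen_ball).mem_nhds
        ⟨e.map_target hz.1, by
          show e (e.symm z) ∈ ball z t
          rw [e.right_inv hz.1]; exact mem_ball_self ht⟩
    filter_upwards [h2] with y hy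
    have h3 := (hball (e y) hy.2).2.2.2 fun b => hcon b _ hy.2
    rw [e.left_inv hy.1] at h3
    exact not_not.2 h3
  obtain ⟨b, hb⟩ := hb
  have hnull := Vale.Agent.P285.H16.null_zero Metric.isOpen_ball (convex_ball z t)
    (fun w hw => (hball w hw).2.1 b) hb
  refine ⟨{z | z ∈ e.target ∧ h (e.symm z) = 0} ∩ ball z t,
    inter_mem self_mem_nhdsWithin (mem_nhdsWithin_of_mem_nhds (Metric.ball_mem_nhds z ht)),
    measure_mono_null ?_ hnull⟩
  rintro w ⟨⟨hw1, hw2⟩, hw3⟩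
  refine ⟨hw3, ?_⟩
  have h3 := (hball w hw3).2.2.1 b
  rw [hw2] at h3
  have h4 : ‖a b w‖ ^ 2 ≤ 0 := by
    by_contra h5
    push Not at h5
    have := mul_pos hc h5
    linarith
  have h5 : ‖a b w‖ = 0 := pow_eq_zero_iff (two_ne_zero) |>.1 (le_antisymm h4 (sq_nonneg _))
  exact norm_eq_zero.1 h5

end null

section one

variable {n M : ℕ} {X : Type} [TopologicalSpace X] [ChartedSpace (Cm n) X]

/-- the trivial pair -/
theorem dec_one {Dv : Fin M → Set X} {r : Fin M → X → ℝ} (χ : FormM n X) (m : ℕ) {𝒪 : Set X}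
    (h𝒪 : Dense 𝒪) (hr : ∀ x ∈ 𝒪, ∀ i, 0 < r i x) :
    IsDecPair Dv r χ 0 m (fun _ => 0) (fun _ _ => 1) (fun _ _ => 1) where
  smooth g hg := ⟨fun e x hx => contDiffAt_const, fun e x hx => contDiffAt_const⟩
  nonneg g x hg := ⟨zero_le_one, zero_le_one⟩
  pos g x hg := ⟨Iff.rfl, Iff.rfl⟩
  hol := by
    intro e x hx
    refine ⟨1, fun _ _ => 1, fun _ => (2 : ℂ) • 1, fun b => analyticAt_const,
      fun b c => contDiffAt_const, ?_, ?_⟩
    · have h1 : (1 : Matrix (Fin 1) (Fin 1) ℂ).PosDef := Matrix.PosDef.one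
      have h2 : (0 : ℂ) < 2 := by
        rw [Complex.lt_def]; simp
      exact h1.smul h2
    · refine Eventually.of_forall fun z => ⟨?_, ?_⟩
      · ext i j
        fin_cases i
        fin_cases j
        simp
      · simp
        norm_num
  ne i hi := absurd rfl hi
  good := by
    refine ⟨𝒪, h𝒪, fun a ha => ⟨0, fun x hx => ⟨hr x hx, chartAt (Cm n) x, fun _ => 0, fun _ => 1,
      fun _ => 1, at_chartAt (n := n) x, fun j l => analyticAt_const, analyticAt_const,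
      analyticAt_const, fun g hg => Eventually.of_forall fun z => ?_, fun _ i hi => absurd rfl hi⟩⟩⟩
    simp [gramD]

end one

section tube

variable {n p : ℕ} {X : Type} [TopologicalSpace X] [T2Space X] [ChartedSpace (Cm n) X]
  {O : Set X} {y : X → Cm p} {W : Set (Cm p)} {b₀ : Cm p → ℝ}

theorem closed_tube (hT : IsTube (n := n) O y W) (hc : HasCompactSupport b₀)
    (hs : tsupport b₀ ⊆ W) : IsClosed {x | x ∈ O ∧ y x ∈ tsupport b₀} :=
  (hT.proper _ hc hs).isClosed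

theorem tubeF_zero {x : X} (hx : ¬ (x ∈ O ∧ y x ∈ tsupport b₀)) : tubeF O y b₀ x = 0 := by
  unfold tubeF
  split_ifs with h
  · by_contra h1
    exact hx ⟨h, subset_tsupport _ h1⟩
  · rfl

theorem tubeF_cont (hT : IsTube (n := n) O y W) (hb : Continuous b₀) (hc : HasCompactSupport b₀)
    (hs : tsupport b₀ ⊆ W) : Continuous (tubeF O y b₀) := by
  rw [continuous_iff_continuousAt]
  intro x
  by_cases hx : x ∈ O ∧ y x ∈ tsupport b₀
  · have h1 : ContinuousAt (fun x => b₀ (y x)) x :=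
      hb.continuousAt.comp (hT.hol x hx.1).continuousAt
    refine h1.congr ?_
    filter_upwards [hT.isOpen.mem_nhds hx.1] with z hz
    unfold tubeF
    rw [if_pos hz]
  · refine (continuousAt_const (y := (0 : ℝ))).congr ?_
    filter_upwards [(closed_tube hT hc hs).isOpen_compl.mem_nhds hx] with z hz
    exact (tubeF_zero hz).symm

theorem tubeF_supp (hT : IsTube (n := n) O y W) (hc : HasCompactSupport b₀)
    (hs : tsupport b₀ ⊆ W) : tsupport (tubeF O y b₀) ⊆ {x | x ∈ O ∧ y x ∈ tsupport b₀} := by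
  refine closure_minimal (fun x hx => ?_) (closed_tube hT hc hs)
  by_contra h
  exact hx (tubeF_zero h)

end tube

/-- the cut-off function -/
def kap (t : ℝ) : ℝ := min 1 (max 0 (t - 1))

theorem kap_mem (t : ℝ) : kap t ∈ Icc (0 : ℝ) 1 :=
  ⟨le_min zero_le_one (le_max_left _ _), min_le_left _ _⟩

theorem kap_pos {t : ℝ} (h : kap t ≠ 0) : 1 ≤ t := by
  by_contra h1
  apply h
  unfold kap
  rw [max_eq_left (by linarith), min_eq_right zero_le_one]

theorem kap_cont : Continuous kap := by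
  unfold kap
  fun_prop

theorem kap_le {a δ : ℝ} (ha : 0 ≤ a) (hδ : 0 < δ) : 1 - kap (a / δ) ≤ 3 * (δ / (a + δ)) := by
  rcases le_or_gt (2 * δ) a with h | h
  · have h1 : 2 ≤ a / δ := by rw [le_div_iff₀ hδ]; exact h
    have h2 : kap (a / δ) = 1 := by
      unfold kap
      rw [max_eq_right (by linarith), min_eq_left (by linarith)]
    rw [h2]
    have : 0 ≤ δ / (a + δ) := by positivity
    linarith
  · have h1 : 1 ≤ 3 * (δ / (a + δ)) := by
      rw [← mul_div_assoc, le_div_iff₀ (by positivity)]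
      linarith
    have := (kap_mem (a / δ)).1
    linarith

/-- **Row N8 (d)**, with weaker hypotheses on the two sections -/
theorem tubeMass_sec (mass : MassPartN) : ∀ (n p M : ℕ) (X Z Y : Type)
    [TopologicalSpace X] [T2Space X] [CompactSpace X] [ConnectedSpace X]
    [ChartedSpace (Cm n) X] [IsManifold 𝓘(ℂ, Cm n) ω X]
    [TopologicalSpace Z] [ChartedSpace (Cm n) Z] [IsManifold 𝓘(ℂ, Cm n) ω Z]
    [TopologicalSpace Y] [T2Space Y] [ConnectedSpace Y]
    [ChartedSpace (Cm p) Y] [IsManifold 𝓘(ℂ, Cm p) ω Y]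
    (χ : D.FormM n X) (_ : IsKahler χ) (Δ : Set X → ℝ) (_ : J.IsSNC (Cm n) Δ)
    (j : Z → X) (_ : J.IsBigOpen (Cm n) j) (f : Z → Y) (_ : ContMDiff 𝓘(ℂ, Cm n) 𝓘(ℂ, Cm p) ω f)
    (_ : ∃ z, Function.Surjective (mfderiv 𝓘(ℂ, Cm n) 𝓘(ℂ, Cm p) f z))
    (Dv : Fin M → Set X) (r : Fin M → X → ℝ) (R : Fin M → D.FormM n X)
    (_ : Function.Injective Dv) (_ : ∀ D, Δ D ≠ 0 ↔ ∃ i, Dv i = D) (_ : IsBd Dv r R)
    (φ : Chart n X → Cm n → ℝ) (_ : IsCanonicalMetric φ) (m₀ : ℕ) (_ : 0 < m₀)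
    (_ : PsefK φ m₀ (fun i => Δ (Dv i)) R χ)
    (𝒢 : Set (Set Y)) (_ : 𝒢.Finite) (_ : ∀ G ∈ 𝒢, J.IsPrime (Cm p) G)
    (m : ℕ) (K : Set X → ℕ) (_ : 0 < m) (_ : ∀ D, (K D : ℝ) ≤ m * Δ D) (σ₀ σ₁ : Y → ℂ)
    (_ : IsSec p m (⋃₀ 𝒢) σ₀) (_ : IsSec p m (⋃₀ 𝒢) σ₁)
    (_ : ∀ x, PoleAt n p m K 𝒢 j f σ₀ x) (_ : ∀ x, PoleAt n p m K 𝒢 j f σ₁ x)
    (c : Chart p Y) (O : Set X) (y : X → Cm p) (W : Set (Cm p)) (_ : IsTubeF (n := n) j f c O y W)
    (V : Set (Cm p)) (_ : IsOpen V) (_ : V ⊆ W)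
    (_ : ∀ q ∈ V, c.symm q ∉ ⋃₀ 𝒢 ∧ σ₀ (c.symm q) ≠ 0 ∧ σ₁ (c.symm q) ≠ 0)
    (b₀ : Cm p → ℝ) (_ : Continuous b₀) (_ : HasCompactSupport b₀) (_ : tsupport b₀ ⊆ V)
    (_ : ∀ q, b₀ q ∈ Icc (0 : ℝ) 1) (G : D.FormM n X) (_ : IsKahler G),
    H882.J G (fun x => tubeF O y b₀ x *
      lapX G (fun z => Real.log (1 + ‖σ₁ (c.symm (y z)) / σ₀ (c.symm (y z))‖ ^ 2)) x) ≤
        m * mixX G (clsK φ (fun i => Δ (Dv i)) R) := by
  intro n p M X Z Y _ _ _ _ _ _ _ _ _ _ _ _ _ _ χ hχ Δ hsnc j hj f hf hsub Dv r R hinj hDv hR φ hφ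
    m₀ hm₀ hps 𝒢 hfin hpr m K₀ hm hK₀ σ₀ σ₁ hsec₀ hsec₁ hpole₀ hpole₁ c O y W hT V hVo hVW hV b₀ hb₀
    hb₀c hb₀s hb01 G hG
  have h𝒢 := thin_of_sub hj hf hsub hfin hpr
  have hset : Setup n p j f (⋃₀ 𝒢) Dv := h𝒢.setup hj hf hsnc hDv
  obtain ⟨K, N₀, N₁, hK, hdec, hho, hq, hval⟩ := Vale.Agent.P281.H716.LCB.tenPart_poleC hχ hj hf h𝒢
    hsnc hinj hDv hR hm hK₀ hsec₀ hsec₁ hpole₀ hpole₁ one_pos
  simp only [mul_one, Nat.cast_one, one_mul] at hK hdec hval
  have hGH := hG.toIsHermitian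
  have hdl : ∀ i, 0 ≤ Δ (Dv i) ∧ Δ (Dv i) ≤ 1 := fun i => snc01 (JB.snc hsnc) (Dv i)
  -- the good part of the tube
  set S : Set X := {x | x ∈ O ∧ y x ∈ V} with hS
  have hSo : IsOpen S := by
    rw [isOpen_iff_mem_nhds]
    intro x hx
    filter_upwards [hT.tube.isOpen.mem_nhds hx.1,
      (hT.tube.hol x hx.1).continuousAt.preimage_mem_nhds (hVo.mem_nhds hx.2)] with z h1 h2
      using ⟨h1, h2⟩
  have hval' : ∀ x ∈ S, (∀ i, x ∉ Dv i) → 0 < N₀ χ x ∧ vN χ N₀ N₁ x =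
      Real.log (1 + ‖σ₁ (c.symm (y x)) / σ₀ (c.symm (y x))‖ ^ 2) := by
    intro x hx hxD
    obtain ⟨z, rfl, hz1, hz2, hz3⟩ := hT.lift x hx.1
    have e1 : c.symm (y (j z)) = f z := by rw [hz2, c.left_inv hz1]
    obtain ⟨h3, h4, h5⟩ := hV _ hx.2
    rw [e1] at h3 h4 h5 ⊢
    obtain ⟨k0, k1, k2⟩ := hval z h3 hxD hz3 h4 h5
    refine ⟨k0, ?_⟩
    have e2 : N₁ χ (j z) / N₀ χ (j z) = ‖σ₁ (f z) / σ₀ (f z)‖ ^ 2 := by
      have e3 := congrArg Real.exp k2
      rw [Real.exp_sub, Real.exp_sub, Real.exp_log k1, Real.exp_log k0,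
        Real.exp_log (by have := norm_pos_iff.2 h5; positivity),
        Real.exp_log (by have := norm_pos_iff.2 h4; positivity)] at e3
      rw [e3, norm_div, div_pow]
    unfold vN
    rw [e2]
  by_cases hne : ∃ x, 0 < N₀ χ x
  swap
  · -- the tube is empty
    have hemp : ∀ x, x ∉ S := by
      intro x hx
      obtain ⟨x', hx', hx''⟩ := hset.denseD.exists_mem_open hSo ⟨x, hx⟩
      exact hne ⟨x', (hval' x' hx'' hx').1⟩
    have h0 : ∀ x, tubeF O y b₀ x * lapX G (fun z =>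
        Real.log (1 + ‖σ₁ (c.symm (y z)) / σ₀ (c.symm (y z))‖ ^ 2)) x = 0 := by
      intro x
      rw [tubeF_zero (fun h => hemp x ⟨h.1, hb₀s h.2⟩), zero_mul]
    rw [H882.J_congr h0]
    obtain ⟨𝒪, h𝒪, hgood⟩ := hdec.good
    obtain ⟨C, hC⟩ := hgood 1 one_pos
    have hd1 := dec_one (Dv := Dv) (r := r) χ m h𝒪 fun x hx => (hC x hx).1
    haveI : Nonempty X := inferInstance
    have h1 := mass n M X χ hχ φ hφ m₀ hm₀ Dv r R hR (fun i => Δ (Dv i)) hdl hps 0 m (fun _ => 0)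
      (fun i => by
        push_cast
        exact mul_nonneg (Nat.cast_nonneg _) (hdl i).1) _ _ hd1 hd1.hol (fun _ => 0)
      (fun g x hg k1 k2 => by simp) ⟨Classical.arbitrary X, one_pos⟩ (fun _ => 0) continuous_const
      (fun x => ⟨le_rfl, zero_le_one⟩) (fun x hx => one_pos) G hG
    have h2 : ∀ x : X, (0 : ℝ) * lapX G (vN χ (fun _ _ => 1) fun _ _ => 1) x = 0 := fun x => zero_mul _
    rwa [H882.J_congr h2] at h1
  -- the function
  set L : X → ℝ := fun z => Real.log (1 + ‖σ₁ (c.symm (y z)) / σ₀ (c.symm (y z))‖ ^ 2) with hL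
  have hLs : ∀ (e : Chart n X) x, At e x → x ∈ S →
      ContDiffAt ℝ ∞ (fun z => L (e.symm z)) (e x) := by
    intro e x hx hxS
    obtain ⟨h3, h4, h5⟩ := hV _ hxS.2
    have hQ := (hsec₀.quotient hsec₁ h3 h4).1
    have hcs : ContMDiffAt 𝓘(ℂ, Cm p) 𝓘(ℂ, Cm p) ω c.symm (y x) :=
      chart_symm_contMDiffAt hT.atlas (hT.target (hVW hxS.2))
    have hF : HolAt (Cm n) (fun x => σ₁ (c.symm (y x)) / σ₀ (c.symm (y x))) x :=
      ContMDiffAt.comp x (g := fun q => σ₁ (c.symm q) / σ₀ (c.symm q))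
        (ContMDiffAt.comp (y x) (g := fun y => σ₁ y / σ₀ y) hQ hcs) (hT.tube.hol x hxS.1)
    have h6 := ((Vale.Agent.P281.H564.holAt_chart hx hF).restrict_scalars ℝ).of_le
      (m := ∞) (by exact_mod_cast le_top)
    refine ContDiffAt.log (contDiffAt_const.add (h6.norm_sq ℝ)) ?_
    positivity
  have hη := tubeF_cont hT.tube hb₀ hb₀c (hb₀s.trans hVW)
  have hηs : ∀ x ∈ tsupport (tubeF O y b₀), x ∈ S := fun x hx =>
    ⟨(tubeF_supp hT.tube hb₀c (hb₀s.trans hVW) hx).1,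
      hb₀s (tubeF_supp hT.tube hb₀c (hb₀s.trans hVW) hx).2⟩
  have hη01 : ∀ x, tubeF O y b₀ x ∈ Icc (0 : ℝ) 1 := by
    intro x
    unfold tubeF
    split_ifs with h
    · exact hb01 _
    · exact ⟨le_rfl, zero_le_one⟩
  set h : X → ℝ := fun x => tubeF O y b₀ x * lapX G L x with hh
  have hhc : Continuous h := cont_mul_lap hGH hSo hLs hη hηs
  have hN₀c : Continuous (N₀ χ) := INT.SmoothFn.continuous (hdec.smooth χ hχ).1
  have hN₀0 : ∀ x, 0 ≤ N₀ χ x := fun x => (hdec.nonneg χ x hχ).1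
  -- the two functions agree
  have hagree : ∀ x ∈ S, 0 < N₀ χ x → vN χ N₀ N₁ x = L x := by
    intro x hx hx0
    have c1 : ContinuousAt (vN χ N₀ N₁) x := by
      unfold vN
      have k1 : Continuous (N₁ χ) := INT.SmoothFn.continuous (hdec.smooth χ hχ).2
      refine ContinuousAt.log (continuousAt_const.add (k1.continuousAt.div hN₀c.continuousAt hx0.ne')) ?_
      have := (hdec.nonneg χ x hχ).2
      positivity
    have c2 : ContinuousAt L x := by
      have hx' := at_chartAt (n := n) x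
      have k1 := (hLs _ x hx' hx).continuousAt
      have k2 : ContinuousAt (fun w => L ((chartAt (Cm n) x).symm (chartAt (Cm n) x w))) x :=
        ContinuousAt.comp (g := fun z => L ((chartAt (Cm n) x).symm z)) k1
          ((chartAt (Cm n) x).continuousAt hx'.2)
      refine k2.congr ?_
      filter_upwards [(chartAt (Cm n) x).open_source.mem_nhds hx'.2] with w hw
      rw [(chartAt (Cm n) x).left_inv hw]
    refine tendsto_nhds_unique_of_frequently_eq c1 c2 ?_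
    refine ((mem_closure_iff_frequently.1 (hset.denseD x)).and_eventually
      (hSo.mem_nhds hx)).mono ?_
    rintro w ⟨hw1, hw2⟩
    exact (hval' w hw2 hw1).2
  have key : ∀ δ : ℝ, 0 < δ → H882.J G h ≤ m * mixX G (clsK φ (fun i => Δ (Dv i)) R) +
      3 * H882.J G (fun x => δ / (N₀ χ x + δ) * |h x|) := by
    intro δ hδ
    set κ : X → ℝ := fun x => kap (N₀ χ x / δ) with hκ
    have hκc : Continuous κ := kap_cont.comp (hN₀c.div_const δ)
    have h1 := mass n M X χ hχ φ hφ m₀ hm₀ Dv r R hR (fun i => Δ (Dv i)) hdl hps p m K hK N₀ N₁ hdec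
      hho (fun x => Real.log (N₁ χ x) - Real.log (N₀ χ x))
      (fun g x hg k1 k2 => (hq g x hg k1 k2).symm) hne (fun x => tubeF O y b₀ x * κ x)
      (hη.mul hκc)
      (fun x => ⟨mul_nonneg (hη01 x).1 (kap_mem _).1,
        mul_le_one₀ (hη01 x).2 (kap_mem _).1 (kap_mem _).2⟩) ?_ G hG
    · have h2 : ∀ x, tubeF O y b₀ x * κ x * lapX G (vN χ N₀ N₁) x = κ x * h x := by
        intro x
        by_cases hx : tubeF O y b₀ x * κ x = 0
        · rw [hx, zero_mul, hh]
          rcases mul_eq_zero.1 hx with h3 | h3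
          · simp only [h3, zero_mul, mul_zero]
          · rw [h3, zero_mul]
        · have h3 : tubeF O y b₀ x ≠ 0 := left_ne_zero_of_mul hx
          have h4 : κ x ≠ 0 := right_ne_zero_of_mul hx
          have hxS : x ∈ S := hηs x (subset_tsupport _ h3)
          have hx0 : 0 < N₀ χ x := by
            have h5 := kap_pos h4
            rw [le_div_iff₀ hδ, one_mul] at h5
            linarith
          have h6 : lapX G (vN χ N₀ N₁) x = lapX G L x := by
            refine Vale.Agent.P281.H413.LC.lapX_congr ?_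
            filter_upwards [hSo.mem_nhds hxS, hN₀c.continuousAt.eventually (lt_mem_nhds hx0)]
              with w h7 h8 using hagree w h7 h8
          rw [h6, hh]
          ring
      rw [H882.J_congr h2] at h1
      have hqc : Continuous fun x => δ / (N₀ χ x + δ) :=
        continuous_const.div (hN₀c.add continuous_const) fun x => by
          have := hN₀0 x
          positivity
      have c1 : Continuous fun x => κ x * h x := hκc.mul hhc
      have c2 : Continuous fun x => 3 * (δ / (N₀ χ x + δ) * |h x|) :=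
        continuous_const.mul (hqc.mul hhc.abs)
      have h3 : H882.J G h ≤ H882.J G fun x => κ x * h x + 3 * (δ / (N₀ χ x + δ) * |h x|) := by
        refine H882.J_mono hGH hhc (c1.add c2) fun x => ?_
        have h4 := kap_le (hN₀0 x) hδ
        have h5 : (1 - κ x) * h x ≤ (1 - κ x) * |h x| :=
          mul_le_mul_of_nonneg_left (le_abs_self _) (by have := (kap_mem (N₀ χ x / δ)).2; linarith)
        have h6 := mul_le_mul_of_nonneg_right h4 (abs_nonneg (h x))
        have h7 : (1 - κ x) * |h x| ≤ 3 * (δ / (N₀ χ x + δ)) * |h x| := h6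
        linarith
      rw [H882.J_add hGH c1 c2, H882.J_const_mul] at h3
      linarith
    · intro x hx
      have h2 : tsupport (fun x => tubeF O y b₀ x * κ x) ⊆ {x | δ ≤ N₀ χ x} := by
        refine closure_minimal (fun z hz => ?_) (isClosed_le continuous_const hN₀c)
        have h4 : κ z ≠ 0 := right_ne_zero_of_mul hz
        have h5 := kap_pos h4
        rw [le_div_iff₀ hδ, one_mul] at h5
        exact h5
      have h3 : δ ≤ N₀ χ x := h2 hx
      linarith
  have hnull : ∀ e : Chart n X, e ∈ atlas (Cm n) X →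
      volume {z | z ∈ e.target ∧ N₀ χ (e.symm z) = 0} = 0 := by
    intro e he
    have h1 := null_hol hho (by
      obtain ⟨x, hx⟩ := hne
      exact ⟨x, by linarith⟩) he
    refine measure_mono_null ?_ h1
    rintro z ⟨hz1, hz2⟩
    exact ⟨hz1, by rw [hz2, add_zero]⟩
  have hlim := Vale.Agent.P281.H227.SB.tendsto_mass hGH hN₀c hN₀0 hnull hhc.abs
  have hlim2 : Tendsto (fun δ : ℝ => m * mixX G (clsK φ (fun i => Δ (Dv i)) R) +
      3 * H882.J G (fun x => δ / (N₀ χ x + δ) * |h x|)) (𝓝[>] 0)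
      (𝓝 (m * mixX G (clsK φ (fun i => Δ (Dv i)) R) + 3 * 0)) :=
    tendsto_const_nhds.add (hlim.const_mul 3)
  rw [mul_zero, add_zero] at hlim2
  refine ge_of_tendsto hlim2 ?_
  filter_upwards [self_mem_nhdsWithin] with δ hδ using key δ hδ

/-- **Row N8 (d)** -/
theorem tubeMass_of (mass : MassPartN) : TubeMass := by
  intro n p M X Z Y _ _ _ _ _ _ _ _ _ _ _ _ _ _ χ hχ Δ hsnc j hj f hf hsub Dv r R hinj hDv hR φ hφ
    m₀ hm₀ hps 𝒢 hfin hpr m K₀ hm hK₀ σ₀ σ₁ h₀ h₁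
  exact tubeMass_sec mass n p M X Z Y χ hχ Δ hsnc j hj f hf hsub Dv r R hinj hDv hR φ hφ m₀ hm₀ hps 𝒢
    hfin hpr m K₀ hm hK₀ σ₀ σ₁ (isSec_of hpr h₀) (isSec_of hpr h₁) (poleAt_of h₀) (poleAt_of h₁)

end Vale.Agent.P281.H716.NU
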