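import Vale.Agent.P281.H716.NU.N1
import Vale.Agent.P281.H716.NU.Tm

/-! P281, theorem NU, rows N2 and N8 (d) closed. -/

namespace Vale.Agent.P281.H716.NU

open Vale.Agent.P281

/-- **Row N2.** -/
theorem massN : H342.NU.MassPartN :=
  H167.NU.massPartN H455.KD.bdPart n1 H413.LC.consPart H575.LC.massLe

/-- **Row N8 (d).** -/
theorem tubeMass : H342.NU.TubeMass := tubeMass_of massN

/-- The same for sections given by `IsSec`, `PoleAt`: apply it as `tubeMassQ n p M X Z Y χ hχ ...`. -/
alias tubeMassQ := tubeMass_sec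

end Vale.Agent.P281.H716.NU
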