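import Vale.Agent.P281.H342.NU.Main
import Vale.Agent.P281.H368.NU.Nef
import Vale.Agent.P281.H776.NU.Poly
import Vale.Agent.P281.H413.NU.Pt
import Vale.Agent.P281.H413.NU.Lap
import Vale.Agent.P281.H575.NU.Fin
import Vale.Agent.P281.H713.NU.Tube
import Vale.Agent.P281.H716.NU.TmF

/-! P281, theorem NU. -/

namespace Vale.Agent.P281.H716.NU

open Vale.Agent.P281

theorem tubePoly : H342.NU.TubePoly := by
  intro n p X _ _ _ _ _ _ χ hχ O y W hT b₀ hb hc hs hb0 A B hA hA' hB hB'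
  obtain ⟨P, h1, h2⟩ := H776.NU.tube_poly hT hb hc hs hA hB
  exact ⟨P, h1.trans (by omega), h2⟩

theorem numNef : H342.NU.NumNef :=
  H342.NU.numNef_all H368.NU.nefPart H776.NU.greenPart H776.NU.bPart tubePoly H413.NU.ptPart
    H413.NU.lapPart H575.NU.fibPartN H713.NU.tubePart (tubeMass_sec massN)

end Vale.Agent.P281.H716.NU
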