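import Vale.Agent.P281.H716.LC.Fin
import Vale.Agent.P281.H716.NU.BochN
import Vale.Agent.P281.H716.NU.StepN
import Vale.Agent.P281.H167.NU.Mass

/-! P281, theorem NU, row N1 closed. -/

namespace Vale.Agent.P281.H716.NU

open Vale.Agent.P281

theorem bochN : H167.NU.BochPartN := bochPartN H455.KD.bdPart

theorem stepN : H167.NU.StepPartN :=
  stepPartN H227.GMC.cohPart H455.KD.bdPart H708.c0Part H970.KD.intPart H575.KD.logPart bochN

/-- **Row N1.** -/
theorem n1 : H342.NU.StepPartN := H167.NU.stepG stepN

end Vale.Agent.P281.H716.NU
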